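import Crest.Agent.R231.D.Semi
import Crest.Agent.R203.AFlow
import Crest.Agent.R203.ACut

/-! R231, block GM: cut-off gradient flow and the annulus lemma.
`exists_gflow`: `V x = - κ x • gradient f x` with a smooth `0 ≤ κ ≤ 1`, `κ = 1` on `closedBall ρ`, supported in `ball (2ρ)`;
`R203.exists_smooth_flow`; group law and fixed points by uniqueness of ODE solutions (`ODE_solution_unique_univ`);
`d/dt f = - κ ‖∇f‖² ≤ - ‖V‖²`, Cauchy-Schwarz (or: `t (f x - f (φ t)) - ‖φ t - x‖²` has nonnegative derivative).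
`IsSemi.annulus`: `d = min κ₀ r²` with `κ₀ > 0` the minimum of `f x - f (φ (1,x))` on the compact annulus; if the orbit
goes from `dist ≤ r` to `dist > 2r` at time `t`, take any `t₁ ≤ t` with `dist = r` (IVT); the drop on `[t₁,t]` is `≥ κ₀` if
`t - t₁ ≥ 1` and `≥ r²` otherwise (`speed`). -/

set_option autoImplicit false
set_option linter.unusedVariables false
set_option linter.unusedSectionVars false
set_option linter.unusedSimpArgs false
open Set
open scoped Classical ContDiff RealInnerProductSpace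

noncomputable section
namespace Crest.Agent.R231

theorem exists_gflow {W : Type} [NormedAddCommGroup W] [InnerProductSpace ℝ W] [FiniteDimensional ℝ W]
    {f : W → ℝ} (hf : ContDiff ℝ ∞ f) {ρ : ℝ} (hρ : 0 < ρ) :
    ∃ φ : ℝ × W → W, Continuous φ ∧ (∀ x, φ (0, x) = x) ∧ (∀ s t x, φ (s + t, x) = φ (s, φ (t, x))) ∧
      (∀ x t, 2 * ρ ≤ ‖x‖ → φ (t, x) = x) ∧
      ∀ x t, 0 ≤ t → f (φ (t, x)) ≤ f x ∧ dist (φ (t, x)) x ^ 2 ≤ t * (f x - f (φ (t, x))) ∧
        (‖x‖ ≤ ρ → 0 < t → f (φ (t, x)) = f x → fderiv ℝ f x = 0) := by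
  have : CompleteSpace W := FiniteDimensional.complete ℝ W
  let κ : ContDiffBump (0 : W) := ⟨ρ, 2 * ρ, hρ, by linarith⟩
  let g : W → W := fun x => (InnerProductSpace.toDual ℝ W).symm (fderiv ℝ f x)
  have hg : ContDiff ℝ ∞ g := (InnerProductSpace.toDual ℝ W).symm.contDiff.comp (hf.fderiv_right (by simp))
  have hgf : ∀ x v, ⟪g x, v⟫ = fderiv ℝ f x v := fun x v => InnerProductSpace.toDual_symm_apply
  let V : W → W := fun x => -(κ x • g x)
  have hV : ContDiff ℝ ∞ V := (κ.contDiff.smul hg).neg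
  have hs : HasCompactSupport V := (κ.hasCompactSupport.smul_right (f' := g)).neg
  obtain ⟨K, hK⟩ := (hV.continuous_fderiv (by simp)).bounded_above_of_compact_support (hs.fderiv ℝ)
  obtain ⟨K', hK'⟩ := hV.lipschitzWith_of_hasCompactSupport hs (by simp)
  obtain ⟨Φ, h1, h2, h3, -⟩ := R203.exists_smooth_flow hV hK
  have uq : ∀ (α : ℝ → W) x, (∀ t, HasDerivAt α (V (α t)) t) → α 0 = x → ∀ t, Φ (t, x) = α t := fun α x ha h0 =>
    congrFun (ODE_solution_unique_univ (v := fun _ => V) (s := fun _ => univ) (t₀ := 0)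
      (fun _ => hK'.lipschitzOnWith) (fun t => ⟨h3 t x, trivial⟩) (fun t => ⟨ha t, trivial⟩) ((h2 x).trans h0.symm))
  have hd : ∀ x s, HasDerivAt (fun s => f x - f (Φ (s, x))) (κ (Φ (s, x)) * ‖g (Φ (s, x))‖ ^ 2) s := fun x s => by
    have := ((hf.differentiable (by simp) _).hasFDerivAt.comp_hasDerivAt s (h3 s x)).const_sub (f x)
    rw [← hgf] at this
    simpa [V, inner_smul_right] using this
  have mono : ∀ x w, Monotone fun s => f x - f (Φ (s, x)) - 2 * ⟪w, Φ (s, x) - x⟫ + s * ‖w‖ ^ 2 := fun x w => by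
    have k := fun s => ((hd x s).sub (((hasDerivAt_const s w).inner ℝ ((h3 s x).sub_const x)).const_mul 2)).add
      ((hasDerivAt_id s).mul_const (‖w‖ ^ 2))
    refine monotone_of_deriv_nonneg (fun s => (k s).differentiableAt) fun s => ?_
    refine le_of_le_of_eq ?_ (k s).deriv.symm
    have k1 := norm_sub_sq_real w (V (Φ (s, x)))
    have k2 : ‖V (Φ (s, x))‖ ^ 2 ≤ κ (Φ (s, x)) * ‖g (Φ (s, x))‖ ^ 2 := by
      have a0 := κ.nonneg' (Φ (s, x))
      have a1 := κ.le_one (x := Φ (s, x))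
      simp only [V, norm_neg, norm_smul, Real.norm_of_nonneg a0, mul_pow]
      exact mul_le_mul_of_nonneg_right (by nlinarith) (sq_nonneg _)
    have k3 := sq_nonneg ‖w - V (Φ (s, x))‖
    simp only [inner_zero_left, add_zero, one_mul]
    linarith
  refine ⟨Φ, h1.continuous, h2, fun s t x => ?_, fun x t hx => ?_, fun x t ht => ⟨?_, ?_, fun hx ht' e => ?_⟩⟩
  · refine (uq (fun s => Φ (s + t, x)) _ (fun s => ?_) (by simp) s).symm
    exact (h3 (s + t) x).comp_add_const s t
  · refine uq (fun _ => x) x (fun s => ?_) rfl t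
    have : V x = 0 := by simp [V, κ.zero_of_le_dist (x := x) (by simpa using hx)]
    rw [this]; exact hasDerivAt_const s x
  · simpa [h2] using mono x 0 ht
  · rcases ht.eq_or_lt with rfl | ht
    · simp [h2]
    have k := mono x (t⁻¹ • (Φ (t, x) - x)) ht.le
    simp only [h2, sub_self, inner_zero_right, real_inner_smul_left, real_inner_self_eq_norm_sq, norm_smul,
      norm_inv, Real.norm_of_nonneg ht.le, mul_zero, zero_mul, add_zero] at k
    rw [dist_eq_norm]
    have k2 := mul_le_mul_of_nonneg_left k ht.le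
    field_simp at k2
    linarith
  · have k : ∀ s ∈ Icc 0 t, f x - f (Φ (s, x)) = 0 := fun s hs => by
      have a1 := mono x 0 hs.1
      have a2 := mono x 0 hs.2
      simp [h2, e] at a1 a2
      linarith
    have k2 := (uniqueDiffOn_Icc ht' 0 ⟨le_rfl, ht⟩).eq_deriv _ (hd x 0).hasDerivWithinAt
      ((hasDerivWithinAt_const 0 (Icc 0 t) (0 : ℝ)).congr k (k 0 ⟨le_rfl, ht⟩))
    rw [h2, κ.one_of_mem_closedBall (by simpa using hx), one_mul, sq_eq_zero_iff, norm_eq_zero] at k2
    ext v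
    rw [← hgf, k2, inner_zero_left]; rfl

theorem IsSemi.annulus {X : Type} [MetricSpace X] {D : Set X} {f : X → ℝ} {φ : ℝ × X → X} {Fx : Set X}
    (h : IsSemi D f φ Fx) (p : X) {r : ℝ} (hr : 0 < r)
    (hF : ∀ x ∈ D ∩ Fx, r ≤ dist x p → dist x p ≤ 2 * r → False) :
    ∃ d, 0 < d ∧ ∀ x ∈ D, dist x p ≤ r → ∀ t, 0 ≤ t → dist (φ (t, x)) p ≤ 2 * r ∨ f (φ (t, x)) ≤ f x - d := by
  obtain ⟨a, ha⟩ := h.compact.bddBelow_image h.cont_f
  obtain ⟨b, hb⟩ := h.compact.bddAbove_image h.cont_f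
  have hC : IsClosed {x : X | dist x p = r} := isClosed_eq (by fun_prop) continuous_const
  obtain ⟨κ, hκ, hκ'⟩ := h.drop hC (a := a) (b := b) fun x hx _ _ =>
    hF x ⟨hx.1.1, hx.2⟩ hx.1.2.ge (hx.1.2.le.trans (by linarith))
  refine ⟨min κ (r ^ 2), by positivity, fun x hx hxr t ht => ?_⟩
  have m2 := min_le_left κ (r ^ 2)
  have m3 := min_le_right κ (r ^ 2)
  refine (le_or_gt _ _).imp_right fun d1 => ?_
  have hc : ContinuousOn (fun s : ℝ => dist (φ (s, x)) p) (Icc 0 t) :=
    (continuous_id.dist continuous_const).comp_continuousOn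
      (h.cont.comp (continuous_id.prodMk continuous_const).continuousOn fun s hs => ⟨hs.1, hx⟩)
  obtain ⟨s, hs, hs'⟩ := intermediate_value_Icc ht hc
    (show r ∈ Icc _ _ from ⟨by rwa [h.zero x hx], by linarith⟩)
  have hs' : dist (φ (s, x)) p = r := hs'
  have hy := h.maps x hx s hs.1
  have a1 := h.anti x hx s hs.1
  have a2 := h.anti' hx hs.1 hs.2
  have e := h.add x hx (t - s) s (by linarith [hs.2]) hs.1
  rw [sub_add_cancel] at e
  rcases le_total 1 (t - s) with h1 | h1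
  · have b1 := hκ' _ ⟨hy, hs'⟩ (ha (mem_image_of_mem f hy)) (hb (mem_image_of_mem f hy))
    have b2 := h.anti' hy zero_le_one h1
    rw [← e] at b2
    linarith
  · have b1 := h.speed _ hy (t - s) (by linarith [hs.2])
    rw [← e] at b1
    have b2 := dist_triangle (φ (t, x)) (φ (s, x)) p
    have b3 : r ^ 2 ≤ dist (φ (t, x)) (φ (s, x)) ^ 2 := pow_le_pow_left₀ hr.le (by linarith) 2
    have b4 : (t - s) * (f (φ (s, x)) - f (φ (t, x))) ≤ f (φ (s, x)) - f (φ (t, x)) :=
      mul_le_of_le_one_left (by linarith) h1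
    linarith

end Crest.Agent.R231
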