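import Crest.Agent.R231.GM.LR
import Crest.Agent.R231.GM.Flow

/-! R231, block GM: an isolated critical point has finite local rank.
`D = closedBall (2ρ)`, `Fx = {0} ∪ {‖x‖ > ρ}`, `r = ρ/8`; `ε` = a third of the annulus drops for the radii `r`, `3r`.
Fixed pair: `K = D ∩ ((closedBall (2r) ∩ {f ≤ a+ε/2}) ∪ {f ≤ a-ε})`, `L = D ∩ {f ≤ a-ε}`,
`U = (ball (3r) ∩ {f < a+ε}) ∪ {f < a-ε/2}`, `W = {f < a-ε/2}`, `R` from `exists_rankLE`.
For `U' ∋ 0`: `r' ≤ r/2` with `closedBall (2r') ⊆ U'`, `O = ball r'`, `b₀ - a ≤ min (ε/2) (drop for r')`.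
`RankLE.of_compact`, then `RankLE.of_inj` with `mp (φ T)` (`IsSemi.reach` with `V = ∅` pushes the compact `L₀ ⊆ {f < a}`
below `a - ε`); a null-homology `w` in `(U, W)` is pushed by `φ T'` (`reach` with `V = O ∩ {f < b}`) into
`(U' ∩ {f<b}) ∪ {f<a}`; `hty_Bdy` along the flow; `excise_inj`. -/

set_option autoImplicit false
set_option linter.unusedVariables false
set_option linter.unusedSectionVars false
set_option linter.unusedSimpArgs false
open Set
open scoped Classical ContDiff RealInnerProductSpace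

noncomputable section
namespace Crest.Agent.R231

open Metric in
theorem LR.isolated_inner {W : Type} [NormedAddCommGroup W] [InnerProductSpace ℝ W] [FiniteDimensional ℝ W]
    {f : W → ℝ} (hf : ContDiff ℝ ∞ f) {ρ : ℝ} (hρ : 0 < ρ) (h : ∀ x, ‖x‖ ≤ ρ → fderiv ℝ f x = 0 → x = 0) :
    ∃ R, LR f {0} (f 0) R := by
  obtain ⟨φ, hφc, hφ0, hφa, hφf, hφ⟩ := exists_gflow hf hρ
  have hfc := hf.continuous
  have := FiniteDimensional.proper ℝ W
  set a := f 0 with ha
  set D : Set W := closedBall 0 (2 * ρ) with hD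
  set Fx : Set W := {x | x = 0 ∨ ρ < ‖x‖} with hFx
  have anti : ∀ x t, 0 ≤ t → f (φ (t, x)) ≤ f x := fun x t ht => (hφ x t ht).1
  have anti' : ∀ x s t, s ≤ t → f (φ (t, x)) ≤ f (φ (s, x)) := fun x s t hst => by
    have := anti (φ (s, x)) (t - s) (sub_nonneg.2 hst)
    rwa [← hφa, sub_add_cancel] at this
  have hS : IsSemi D f φ Fx := by
    refine ⟨isCompact_closedBall _ _, hfc.continuousOn, hφc.continuousOn, fun x hx t _ => ?_,
      fun x _ => hφ0 x, fun x _ s t _ _ => hφa s t x, fun x _ t ht => anti x t ht,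
      fun x _ t ht => (hφ x t ht).2.1, fun x _ hx => ?_⟩
    · by_contra hn
      have h1 := hφf (φ (t, x)) (-t) (not_le.1 fun h' => hn (mem_closedBall_zero_iff.2 h')).le
      rw [← hφa, neg_add_cancel, hφ0] at h1
      exact hn (h1 ▸ hx)
    · by_cases hx' : ‖x‖ ≤ ρ
      · exact Or.inl (h x hx' ((hφ x 1 zero_le_one).2.2 hx' one_pos hx))
      · exact Or.inr (not_le.1 hx')
  have ann : ∀ s, 0 < s → 2 * s ≤ ρ → ∃ d, 0 < d ∧ ∀ x, ‖x‖ ≤ s → ∀ t, 0 ≤ t →
      ‖φ (t, x)‖ ≤ 2 * s ∨ f (φ (t, x)) ≤ f x - d := fun s hs hsρ => by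
    obtain ⟨d, hd, h1⟩ := hS.annulus 0 hs fun x hx h1 h2 => by
      rw [dist_zero_right] at h1 h2
      rcases hx.2 with h3 | h3
      · rw [h3, norm_zero] at h1
        linarith
      · linarith
    refine ⟨d, hd, fun x hx t ht => ?_⟩
    simpa only [dist_zero_right] using
      h1 x (mem_closedBall_zero_iff.2 (by linarith)) (by rwa [dist_zero_right]) t ht
  have fix0 : ∀ s, s ≤ ρ → ∀ x ∈ D ∩ closedBall 0 s ∩ Fx, x = 0 := fun s hs x hx =>
    hx.2.resolve_right (not_lt.2 ((mem_closedBall_zero_iff.1 hx.1.2).trans hs))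
  obtain ⟨r, hr, hrρ⟩ : ∃ r, 0 < r ∧ 8 * r = ρ := ⟨ρ / 8, by positivity, by ring⟩
  obtain ⟨d₁, hd₁, A₁⟩ := ann r hr (by linarith)
  obtain ⟨d₃, hd₃, A₃⟩ := ann (3 * r) (by linarith) (by linarith)
  obtain ⟨ε, hε, e₁, e₃⟩ : ∃ ε, 0 < ε ∧ 3 * ε ≤ d₁ ∧ 3 * ε ≤ d₃ :=
    ⟨min d₁ d₃ / 3, by positivity, by linarith [min_le_left d₁ d₃], by linarith [min_le_right d₁ d₃]⟩
  have cl : ∀ c, IsClosed {x | f x ≤ c} := fun c => isClosed_le hfc continuous_const
  have op : ∀ c, IsOpen (Sb f c) := fun c => isOpen_lt hfc continuous_const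
  obtain ⟨R, hR⟩ := exists_rankLE
    (K := D ∩ ((closedBall 0 (2 * r) ∩ {x | f x ≤ a + ε / 2}) ∪ {x | f x ≤ a - ε}))
    (L := D ∩ {x | f x ≤ a - ε}) (U := (ball 0 (3 * r) ∩ Sb f (a + ε)) ∪ Sb f (a - ε / 2))
    (W := Sb f (a - ε / 2)) (hS.compact.inter_right ((isClosed_closedBall.inter (cl _)).union (cl _)))
    (hS.compact.inter_right (cl _)) (inter_subset_inter_right _ subset_union_right)
    ((isOpen_ball.inter (op _)).union (op _)) (op _)
    (fun x hx => by
      rcases hx.2 with h1 | h1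
      · exact Or.inl ⟨closedBall_subset_ball (by linarith) h1.1,
          lt_of_le_of_lt (show f x ≤ a + ε / 2 from h1.2) (by linarith)⟩
      · exact Or.inr (lt_of_le_of_lt (show f x ≤ a - ε from h1) (by linarith)))
    fun x hx => lt_of_le_of_lt (show f x ≤ a - ε from hx.2) (by linarith)
  refine ⟨R, fun U hU hC => ?_⟩
  obtain ⟨r₁, hr₁, hrU⟩ := nhds_basis_closedBall.mem_iff.1 (hU.mem_nhds (hC rfl))
  obtain ⟨s, hs, hsr, hs₁⟩ : ∃ s, 0 < s ∧ s ≤ r ∧ 2 * s ≤ r₁ :=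
    ⟨min r (r₁ / 2), by positivity, min_le_left _ _, by linarith [min_le_right r (r₁ / 2)]⟩
  obtain ⟨d, hd, A₀⟩ := ann s hs (by linarith)
  refine ⟨ball 0 s, isOpen_ball, singleton_subset_iff.2 (mem_ball_self hs), a + min (ε / 2) d,
    lt_add_of_pos_right _ (by positivity), fun b hab hb => ?_⟩
  have hb1 : b ≤ a + ε / 2 := hb.trans (by linarith [min_le_left (ε / 2) d])
  have hb2 : b ≤ a + d := hb.trans (by linarith [min_le_right (ε / 2) d])
  have stay : ∀ x ∈ ball (0 : W) s ∩ Sb f b, ∀ t, 0 ≤ t → φ (t, x) ∈ (U ∩ Sb f b) ∪ Sb f a := fun x hx t ht => by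
    have h1 : f x < b := hx.2
    rcases A₀ x (mem_ball_zero_iff.1 hx.1).le t ht with h2 | h2
    · exact Or.inl ⟨hrU (mem_closedBall_zero_iff.2 (h2.trans hs₁)), (anti x t ht).trans_lt h1⟩
    · exact Or.inr (show f _ < a by linarith)
  have hsD : ∀ {x : W} {u : ℝ}, x ∈ ball (0 : W) u → u ≤ 3 * r → x ∈ D := fun hx hu =>
    mem_closedBall_zero_iff.2 ((mem_ball_zero_iff.1 hx).le.trans (by linarith))
  obtain ⟨T', hT', h'⟩ := hS.reach (V := ball 0 s ∩ Sb f b) (C := closedBall 0 (2 * (3 * r)))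
    (isOpen_ball.inter (op _)) isClosed_closedBall (a := a) (b := a + ε) fun x hx _ _ => by
      rw [fix0 _ (by linarith) x hx]
      exact ⟨mem_ball_self hs, hab⟩
  have push : MapsTo (fun x => φ (T', x)) ((ball 0 (3 * r) ∩ Sb f (a + ε)) ∪ Sb f (a - ε / 2))
      ((U ∩ Sb f b) ∪ Sb f a) := fun x hx => by
    rcases hx with hx | hx
    · have h1 : f x < a + ε := hx.2
      obtain ⟨t, ht, h2⟩ := h' x (hsD hx.1 le_rfl) h1.le fun t ht =>
        (A₃ x (mem_ball_zero_iff.1 hx.1).le t ht).imp mem_closedBall_zero_iff.2 fun h3 => by linarith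
      rcases h2 with h2 | h2
      · have h3 := stay _ h2 (T' - t) (sub_nonneg.2 ht.2)
        rwa [← hφa, sub_add_cancel] at h3
      · exact Or.inr ((anti' x t T' ht.2).trans_lt h2)
    · have h1 : f x < a - ε / 2 := hx
      exact Or.inr (show f _ < a by linarith [anti x T' hT'])
  refine RankLE.of_compact fun K₀ L₀ hK₀ hKO hL₀ hLO => ?_
  obtain ⟨b₁, hb₁, hLb⟩ : ∃ b₁ : ℝ, b₁ < a ∧ ∀ x ∈ L₀, f x ≤ b₁ :=
    hL₀.exists_forall_le' (α := ℝᵒᵈ) (f := f) (a := a) hfc.continuousOn fun x hx => (hLO hx).2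
  obtain ⟨T, hT, h''⟩ := hS.reach (V := ∅) (C := closedBall 0 (2 * r)) isOpen_empty isClosed_closedBall
    (a := a - ε) (b := b₁) fun x hx _ h2 => by
      rw [fix0 _ (by linarith) x hx] at h2
      exact absurd hb₁ (not_lt.2 h2)
  have hc1 : ∀ t, Continuous fun x => φ (t, x) := fun t => by fun_prop
  refine RankLE.of_inj (mp fun x => φ (T, x)) (fun c hc => mp_Cyc (hc1 T).continuousOn
    (fun x hx => ?_) (fun x hx => ?_) hc) (fun c hc hB => ?_) hR
  · have h1 := hKO hx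
    have h2 : f x < b := h1.2
    refine ⟨hS.maps x (hsD h1.1 (by linarith)) T hT, ?_⟩
    rcases A₁ x ((mem_ball_zero_iff.1 h1.1).le.trans hsr) T hT with h3 | h3
    · exact Or.inl ⟨mem_closedBall_zero_iff.2 h3, show f _ ≤ _ by linarith [anti x T hT]⟩
    · exact Or.inr (show f _ ≤ _ by linarith)
  · have h1 := hLO hx
    have h2 : f x < a := h1.2
    refine ⟨hS.maps x (hsD h1.1 (by linarith)) T hT, ?_⟩
    obtain ⟨t, ht, h3⟩ := h'' x (hsD h1.1 (by linarith)) (hLb x hx) fun t ht =>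
      (A₁ x ((mem_ball_zero_iff.1 h1.1).le.trans hsr) t ht).imp mem_closedBall_zero_iff.2
        fun h3 => by linarith
    exact ((anti' x t T ht.2).trans_lt (h3.resolve_left id)).le
  · have h1 := mp_Bdy (B' := Sb f a) (hc1 T').continuousOn push (fun x hx => by
      have h1 : f x < a - ε / 2 := hx
      exact show f _ < a by linarith [anti x T' hT']) hB
    rw [mp_comp hc.1 (hc1 T).continuousOn] at h1
    have h0 : ∀ u ∈ Icc (0 : ℝ) 1, 0 ≤ u * (T' + T) := fun u hu => mul_nonneg hu.1 (add_nonneg hT' hT)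
    have h2 := hty_Bdy (H := fun q : ℝ × W => φ (q.1 * (T' + T), q.2)) (A' := (U ∩ Sb f b) ∪ Sb f a)
      (B' := Sb f a) (by fun_prop) (fun q hq => stay _ (hKO hq.2) _ (h0 _ hq.1))
      (fun q hq => (anti _ _ (h0 _ hq.1)).trans_lt (hLO hq.2).2) hc
    simp only [zero_mul, one_mul, hφ0, mp_id, hφa] at h2
    have h3 := add_mem h2 h1
    rw [add_assoc, add_self, add_zero] at h3
    have hsU : ball (0 : W) s ⊆ U := fun x hx =>
      hrU (mem_closedBall_zero_iff.2 (by linarith [mem_ball_zero_iff.1 hx]))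
    have h4 := excise_inj (U := U) (V := Sb f a) hU (op _) (union_subset_union_left _ inter_subset_left)
      inter_subset_right subset_union_right
      (sup_mono (fun x hx => mem_inter (Or.inl ⟨hsU (hKO hx).1, (hKO hx).2⟩) (hsU (hKO hx).1)) hc.1) h3
    have j : ((U ∩ Sb f b) ∪ Sb f a) ∩ U ⊆ U ∩ Sb f b := fun x hx =>
      ⟨hx.2, hx.1.elim (fun h5 => h5.2) fun h5 => lt_trans h5 hab⟩
    exact Bdy_mono j (inter_comm _ _).subset h4

/-- transport to a subspace of a normed space (`toEuclidean`, `LR.homeo`) -/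
theorem LR.isolated {A : Type} [NormedAddCommGroup A] [NormedSpace ℝ A] [FiniteDimensional ℝ A]
    {F : A → ℝ} (hF : ContDiff ℝ ∞ F) (W : Submodule ℝ A) {ρ : ℝ} (hρ : 0 < ρ)
    (h : ∀ y ∈ W, ‖y‖ < ρ → (∀ v ∈ W, fderiv ℝ F y v = 0) → y = 0) :
    ∃ R, LR (fun w : W => F w) {0} (F 0) R := by
  let e := (toEuclidean (E := W)).symm
  let L := W.subtypeL.comp e.toContinuousLinearMap
  have hL : ∀ x, L x = e x := fun x => rfl
  obtain ⟨R, hR⟩ := LR.isolated_inner (f := fun x => F (L x)) (hF.comp L.contDiff) (ρ := ρ / (‖L‖ + 1) / 2)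
    (by positivity) fun x hx h0 => by
      have h1 : ‖L x‖ < ρ := by
        have h2 := L.le_opNorm x
        have h3 : 0 < ‖L‖ + 1 := by positivity
        have h4 : ‖x‖ * (‖L‖ + 1) < ρ := by
          rw [← lt_div_iff₀ h3]
          linarith [div_pos hρ h3]
        nlinarith [norm_nonneg x]
      have h5 := h (L x) (e x).2 h1 fun v hv => by
        have h6 := ((hF.differentiable (by simp) (L x)).hasFDerivAt.comp x L.hasFDerivAt).fderiv
        have h7 := congrArg (· (e.symm ⟨v, hv⟩)) (h6.symm.trans h0)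
        simpa [hL] using h7
      exact e.map_eq_zero_iff.1 (Subtype.ext h5)
  refine ⟨R, ?_⟩
  have h1 := LR.homeo (g := fun w : W => F w) e.toHomeomorph (fun x => rfl) hR
  simpa using h1

end Crest.Agent.R231
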