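import Crest.Agent.R231.GM.Mono
import Crest.Agent.R231.GM.Iso

/-! R231, block GM: the base polygon is an isolated critical point on the slice.
`lagrange`: on `VV`, `dFF y = μ xi` (if `xi w` vanishes on `VV` there is nothing to prove).  For small `|s|`,
`y s = co p (sh s x)` (`x = ch p y`) satisfies `FF (y s) = en (sh s x) ≤ en x = FF y`, `‖y s - y‖ ≤ C |s|` (`poly_lip`),
and `xi (y s) - xi y ≥ κ s` (`s ≥ 0`), `≤ κ s` (`s ≤ 0`); with `FF (y s) - FF y = μ (xi (y s) - xi y) + o(|s|)` this forces `μ = 0`.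
`isol`: `G.crit`; the level is a critical value close to `m ℓ` (`critV_isolated`), `uL (l, x)` is a closed geodesic close to
`geo i m true 0` (`continuousOn_uL`, `uL_nodes_geo`), `near_geo`, monotonicity. -/

set_option autoImplicit false
set_option linter.unusedVariables false
set_option linter.unusedSectionVars false
set_option linter.unusedSimpArgs false
open Set
open scoped Classical ContDiff RealInnerProductSpace

noncomputable section
namespace Crest.Agent.R231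

theorem isol_nhds {n N : ℕ} [NeZero N] (p : ZMod N → M n) {Q : Set (ZMod N → M n)} (hQ : Q ∈ nhds p) :
    ∃ ρ, 0 < ρ ∧ ∀ y ∈ VV p, ‖y‖ < ρ → ‖y‖ ≤ 1 / 2 ∧ ch p y ∈ Q := by
  have h1 := (continuousOn_ch p 0 ⟨zero_mem _, by simp⟩).eventually (p := fun x => x ∈ Q) (by rwa [ch_zero])
  obtain ⟨ε, hε, h2⟩ := Metric.eventually_nhds_iff.1 (eventually_nhdsWithin_iff.1 h1)
  refine ⟨min ε (1 / 2), by positivity, fun y hy h3 => ?_⟩
  have h4 := (h3.trans_le (min_le_right _ _)).le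
  exact ⟨h4, h2 (by rw [dist_zero_right]; exact h3.trans_le (min_le_left _ _)) ⟨hy, h4⟩⟩

theorem isol_mu {A : Type} [NormedAddCommGroup A] [NormedSpace ℝ A] {F : A → ℝ} {L : A →L[ℝ] ℝ} {y : A}
    (hF : HasFDerivAt F L y) {Y : ℝ → A} {ξ : ℝ → ℝ} {C κ μ : ℝ} (hC : 0 < C) (hκ : 0 < κ)
    (h1 : ∀ s, ‖Y s - y‖ ≤ C * |s|) (h2 : ∀ s, L (Y s - y) = μ * ξ s)
    (h3 : ∀ᶠ s in nhds (0 : ℝ), F (Y s) ≤ F y ∧ (0 ≤ s → κ * s ≤ ξ s) ∧ (s ≤ 0 → ξ s ≤ κ * s)) : μ = 0 := by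
  by_contra hμ
  have hμ' := abs_pos.2 hμ
  have hY : Filter.Tendsto Y (nhds 0) (nhds y) := by
    rw [tendsto_iff_norm_sub_tendsto_zero]
    refine squeeze_zero (fun _ => norm_nonneg _) h1 ?_
    simpa using (by fun_prop : ContinuousAt (fun s : ℝ => C * |s|) 0).tendsto
  have h4 := hY.eventually (hF.isLittleO.def (c := |μ| * κ / (2 * C)) (by positivity))
  obtain ⟨ε, hε, h5⟩ := Metric.eventually_nhds_iff.1 (h3.and h4)
  have key : ∀ s, |s| = ε / 2 → |μ| * κ * |s| ≤ μ * ξ s → False := fun s hs h6 => by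
    obtain ⟨⟨h7, -⟩, h8⟩ := h5 (y := s) (by rw [Real.dist_eq, sub_zero, hs]; linarith)
    have h9 := h8.trans (mul_le_mul_of_nonneg_left (h1 s) (by positivity))
    rw [h2, Real.norm_eq_abs, show |μ| * κ / (2 * C) * (C * |s|) = |μ| * κ * |s| / 2 by field_simp] at h9
    have h10 := (abs_le.1 h9).1
    have h11 : 0 < |μ| * κ * |s| := by rw [hs]; positivity
    linarith
  rcases lt_or_gt_of_ne hμ with h | h
  · have hs : |-(ε / 2)| = ε / 2 := by rw [abs_neg, abs_of_pos (by linarith)]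
    have h6 := (h5 (y := -(ε / 2)) (by rw [Real.dist_eq, sub_zero, hs]; linarith)).1.2.2 (by linarith)
    refine key _ hs ?_
    rw [hs, abs_of_neg h]
    nlinarith
  · have hs : |ε / 2| = ε / 2 := abs_of_pos (by linarith)
    have h6 := (h5 (y := ε / 2) (by rw [Real.dist_eq, sub_zero, hs]; linarith)).1.2.1 (by linarith)
    refine key _ hs ?_
    rw [hs, abs_of_pos h]
    nlinarith

namespace Setup
variable {n : ℕ} (G : Setup n)

/-- the other critical circles of the same level and the far part of the circle form a compact set -/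
theorem near_geo (i : G.ι) {m : ℕ} (hm : 0 < m) {η : ℝ} (hη : 0 < η) : ∃ U, IsOpen U ∧ G.geo i m true 0 ∈ U ∧
    ∀ i' (m' : ℕ) b' s', 0 < m' → m' * G.ℓ i' = m * G.ℓ i → G.geo i' m' b' s' ∈ U →
      ∃ θ, |θ| < η ∧ G.geo i' m' b' s' = G.geo i m true θ := by
  have h1 : ∀ (i' : G.ι) (b' : Bool), ∀ᶠ γ in nhds (G.geo i m true 0), ∀ m' : ℕ, 0 < m' →
      m' * G.ℓ i' = m * G.ℓ i → ¬ (i' = i ∧ m' = m ∧ b' = true) → γ ∉ G.Orb i' m' b' := fun i' b' => by
    by_cases hex : ∃ m' : ℕ, 0 < m' ∧ m' * G.ℓ i' = m * G.ℓ i ∧ ¬ (i' = i ∧ m' = m ∧ b' = true)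
    · obtain ⟨m₁, h1, h2, h3⟩ := hex
      filter_upwards [(isCompact_Orb i' m₁ b').isClosed.isOpen_compl.mem_nhds
        (disjoint_right.1 (disjoint_Orb h1 hm h3) ⟨0, rfl⟩)] with γ hγ m' _ h4 _
      have : m' = m₁ := by exact_mod_cast mul_right_cancel₀ (G.ℓ_pos i').ne' (h4.trans h2.symm)
      rwa [this]
    · exact .of_forall fun γ m' h1 h2 h3 => (hex ⟨m', h1, h2, h3⟩).elim
  have h2 : ∀ᶠ γ in nhds (G.geo i m true 0), γ ∉ G.geo i m true '' Icc η (1 - η) := by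
    refine (isCompact_Icc.image (continuous_geo i m true)).isClosed.isOpen_compl.mem_nhds ?_
    rintro ⟨s, hs, h3⟩
    obtain ⟨k, hk⟩ := geo_inj i hm true h3
    have h4 : (k : ℝ) < 0 := by linarith [hs.1]
    have h5 : (-1 : ℝ) < k := by linarith [hs.2]
    have h6 : k < 0 := by exact_mod_cast h4
    have h7 : -1 < k := by exact_mod_cast h5
    omega
  obtain ⟨U, h3, h4, h5⟩ := eventually_nhds_iff.1
    (((Filter.eventually_all.2 fun i' => Filter.eventually_all.2 (h1 i'))).and h2)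
  refine ⟨U, h4, h5, fun i' m' b' s' hm' hl hU => ?_⟩
  obtain ⟨rfl, rfl, rfl⟩ : i' = i ∧ m' = m ∧ b' = true := by
    by_contra hn
    exact (h3 _ hU).1 i' b' m' hm' hl hn ⟨s', rfl⟩
  have h6 : G.geo i' m' true s' = G.geo i' m' true (Int.fract s') := by
    rw [← (geo_per i' m' true).int_mul ⌊s'⌋ (Int.fract s'), mul_one, Int.fract_add_floor]
  have h7 : Int.fract s' ∉ Icc η (1 - η) := fun h => (h3 _ hU).2 ⟨_, h, h6.symm⟩
  have h8 := Int.fract_nonneg s'
  have h9 := Int.fract_lt_one s'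
  by_cases h10 : Int.fract s' < η
  · exact ⟨_, by rwa [abs_of_nonneg h8], h6⟩
  · refine ⟨Int.fract s' - 1, ?_, h6.trans ((geo_per i' m' true).sub_eq _).symm⟩
    rw [abs_of_neg (by linarith)]
    have := not_le.1 fun h => h7 ⟨not_lt.1 h10, h⟩
    linarith

theorem lagrange (i : G.ι) (m N : ℕ) [NeZero N] (hm : 0 < m) (h : m * G.ℓ i < N * G.δ) : ∃ ρ, 0 < ρ ∧
    ∀ y ∈ VV (G.bp i m N), ‖y‖ < ρ → (∀ v ∈ V0 (G.bp i m N) (G.bw i m N), fderiv ℝ (G.FF (G.bp i m N)) y v = 0) →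
      ∀ v ∈ VV (G.bp i m N), fderiv ℝ (G.FF (G.bp i m N)) y v = 0 := by
  obtain ⟨η, hη, H⟩ := G.mono i
  obtain ⟨κ, hκ, O, hO, hOD, hθ, hmono⟩ := H m N hm h
  set p := G.bp i m N with hp
  set w := G.bw i m N with hw
  obtain ⟨ρ, hρ, h1⟩ := isol_nhds p (Filter.inter_mem (hO.mem_nhds (hθ 0 (by simpa using hη.le)))
    (Metric.ball_mem_nhds p (show (0 : ℝ) < 1 / 4 by norm_num)))
  refine ⟨ρ, hρ, fun y hy hyρ hc => ?_⟩
  by_cases hex : ∃ v₁ ∈ VV p, xi w v₁ ≠ 0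
  swap
  · exact fun v hv => hc v (mem_V0.2 ⟨hv, by_contra fun h0 => hex ⟨v, hv, h0⟩⟩)
  obtain ⟨v₁, hv₁, hx₁⟩ := hex
  have hμ : ∀ v ∈ VV p, fderiv ℝ (G.FF p) y v = fderiv ℝ (G.FF p) y v₁ / xi w v₁ * xi w v := fun v hv => by
    have h2 := hc (v - (xi w v / xi w v₁) • v₁) (mem_V0.2 ⟨sub_mem hv (Submodule.smul_mem _ _ hv₁), by
      rw [map_sub, map_smul, smul_eq_mul, div_mul_cancel₀ _ hx₁, sub_self]⟩)
    rw [map_sub, map_smul, smul_eq_mul, sub_eq_zero] at h2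
    rw [h2]
    ring
  obtain ⟨h2, h3, h4⟩ := h1 y hy hyρ
  set x := ch p y with hx
  have hxD := hOD h3
  have hC : 0 < G.cL * (N * G.δ) :=
    mul_pos (one_pos.trans_le G.one_le_cL) (mul_pos (Nat.cast_pos.2 (NeZero.pos N)) G.δ_pos)
  have hd : ∀ s, dist (G.sh N s x) x ≤ G.cL * (N * G.δ) * |s| := fun s => by
    refine (dist_pi_le_iff (by positivity)).2 fun k => ?_
    have h5 := G.poly_lip N hxD (L := N * G.δ)
      (fun k => mul_le_mul_of_nonneg_left (hxD k).le (Nat.cast_nonneg N)) (k.val / N + s) (k.val / N + 0)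
    rw [add_sub_add_left_eq_sub, sub_zero] at h5
    have h6 : G.poly N x (k.val / N + 0) = x k := congrFun (G.sh_zero N hxD) k
    rw [h6] at h5
    rw [mul_assoc]
    exact (G.dist_le _ _).trans (mul_le_mul_of_nonneg_left h5 (zero_le_one.trans G.one_le_cL))
  have hy0 : co p x = y := co_ch hy h2
  have hξ : ∀ s, xi w (co p (G.sh N s x) - y) = xM w (G.sh N s x) - xM w (G.sh N 0 x) := fun s => by
    rw [map_sub, ← hy0, xi_co (G.bw_mem i m), xi_co (G.bw_mem i m), G.sh_zero N hxD]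
  have he : 0 < 3 * η / m := by positivity
  have h0 := isol_mu ((G.contDiff_FF p).differentiable (by simp) y).hasFDerivAt
    (Y := fun s => co p (G.sh N s x)) (μ := fderiv ℝ (G.FF p) y v₁ / xi w v₁)
    (ξ := fun s => xM w (G.sh N s x) - xM w (G.sh N 0 x)) hC hκ
    (fun s => hy0 ▸ (norm_co_sub_le p _ _).trans (hd s))
    (fun s => by rw [hμ _ (sub_mem (co_mem _ _) hy), hξ]) (by
      have k1 : ∀ᶠ s : ℝ in nhds 0, G.cL * (N * G.δ) * |s| < 1 / 4 :=
        (by fun_prop : ContinuousAt (fun s : ℝ => G.cL * (N * G.δ) * |s|) 0).eventually_lt continuousAt_const (by simp)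
      have k2 : ∀ᶠ s : ℝ in nhds 0, |s| < 3 * η / m :=
        (by fun_prop : ContinuousAt (fun s : ℝ => |s|) 0).eventually_lt continuousAt_const (by simpa using he)
      filter_upwards [k1, k2] with s k1 k2
      have k3 : dist (G.sh N s x) p ≤ 1 / 2 := by
        linarith [dist_triangle (G.sh N s x) x p, hd s, Metric.mem_ball.1 h4]
      have k4 : ‖co p (G.sh N s x)‖ ≤ 1 / 2 := by
        have := norm_co_sub_le p (G.sh N s x) p
        rw [co_self, sub_zero] at this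
        exact this.trans k3
      refine ⟨?_, fun hs => ?_, fun hs => ?_⟩
      · rw [G.FF_eq_en (co_mem _ _) k4 (by rw [ch_co k3]; exact G.sh_mem_Dom N hxD s), ch_co k3,
          G.FF_eq_en hy h2 hxD]
        exact G.en_sh_le N hxD s
      · simpa using hmono x h3 0 s (by simpa using he.le) k2.le hs
      · have := hmono x h3 s 0 k2.le (by simpa using he.le) hs
        linarith)
  intro v hv
  rw [hμ v hv, h0, zero_mul]

theorem isol (i : G.ι) (m N : ℕ) [NeZero N] (hm : 0 < m) (h : m * G.ℓ i < N * G.δ) : ∃ ρ, 0 < ρ ∧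
    ∀ y ∈ V0 (G.bp i m N) (G.bw i m N), ‖y‖ < ρ →
      (∀ v ∈ V0 (G.bp i m N) (G.bw i m N), fderiv ℝ (G.FF (G.bp i m N)) y v = 0) → y = 0 := by
  obtain ⟨η, hη, H⟩ := G.mono i
  obtain ⟨κ, hκ, O, hO, hOD, hθ, hmono⟩ := H m N hm h
  obtain ⟨ρ₁, hρ₁, hL⟩ := G.lagrange i m N hm h
  obtain ⟨U, hU, hU0, hU1⟩ := G.near_geo i hm hη
  obtain ⟨e, he, hcr⟩ := critV_isolated (G := G) (m * G.ℓ i)
  set p := G.bp i m N with hp
  set w := G.bw i m N with hw
  have hm0 : (0 : ℝ) < m := by exact_mod_cast hm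
  have hN : (0 : ℝ) < N := Nat.cast_pos.2 (NeZero.pos N)
  have hl : 0 < m * G.ℓ i := mul_pos hm0 (G.ℓ_pos i)
  have hUD : ∀ i' (m' : ℕ) b' s', m' * G.ℓ i' < N * G.δ → (m' * G.ℓ i', G.nodes N (G.geo i' m' b' s')) ∈ G.UDom N :=
    fun i' m' b' s' h' => by
      have := G.nodes_mem_UDom N (γ := G.geo i' m' b' s') (by rwa [geo_T])
      rwa [geo_T] at this
  have k1 : ∀ᶠ x in nhds p, (m * G.ℓ i, x) ∈ G.UDom N → G.uL N (m * G.ℓ i, x) ∈ U := by
    have h1 := (G.continuousOn_uL N _ (hUD i m true 0 h)).eventually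
      (hU.mem_nhds (by rwa [G.uL_nodes_geo N i m true 0 h]))
    rw [eventually_nhdsWithin_iff] at h1
    exact ((Continuous.prodMk_right _).tendsto p).eventually h1
  have k2 : ∀ᶠ x in nhds p, |√(G.en N x) - m * G.ℓ i| < min e (m * G.ℓ i) := by
    have hc := G.continuous_en N
    refine (by fun_prop : ContinuousAt (fun x => |√(G.en N x) - m * G.ℓ i|) p).eventually_lt continuousAt_const ?_
    rw [hp, bp, G.en_nodes_geo N i m true 0 h, Real.sqrt_sq hl.le, sub_self, abs_zero]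
    exact lt_min he hl
  obtain ⟨ρ, hρ, h1⟩ := isol_nhds p (Filter.inter_mem (hO.mem_nhds (hθ 0 (by simpa using hη.le))) (k1.and k2))
  refine ⟨min ρ ρ₁, lt_min hρ hρ₁, fun y hy hyρ hc => ?_⟩
  obtain ⟨h2, h3, h4, h5⟩ := h1 y hy.1 (hyρ.trans_le (min_le_left _ _))
  have hy0 : co p (ch p y) = y := co_ch hy.1 h2
  rcases G.crit N (ch p y) (hOD h3) (G.crit_of_fderiv hy.1 h2
    (hL y hy.1 (hyρ.trans_le (min_le_right _ _)) hc)) with h6 | ⟨i', m', b', s', hm', h6, h7⟩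
  · have h7 : G.en N (ch p y) = 0 := by simp [en, h6, G.ρ_self]
    rw [h7, Real.sqrt_zero, zero_sub, abs_neg, abs_of_pos hl] at h5
    exact absurd (h5.trans_le (min_le_right _ _)) (lt_irrefl _)
  have h8 : ch p y = G.nodes N (G.geo i' m' b' s') := funext fun k => by
    rw [← ZMod.intCast_zmod_cast k, h6, nodes_intCast, geo_ev]
  have h9 : m' * G.ℓ i' < N * G.δ := by
    have := hOD h3 0
    rwa [h7, div_lt_iff₀' hN] at this
  rw [h8, G.en_nodes_geo N i' m' b' s' h9, Real.sqrt_sq (mul_nonneg (Nat.cast_nonneg _) (G.ℓ_pos i').le)] at h5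
  have h10 : m' * G.ℓ i' = m * G.ℓ i := hcr _ ⟨i', m', hm', rfl⟩ (h5.trans_le (min_le_left _ _)).le
  rw [h8, ← h10, G.uL_nodes_geo N i' m' b' s' h9] at h4
  obtain ⟨θ, hθη, h11⟩ := hU1 i' m' b' s' hm' h10 (h4 (hUD i' m' b' s' h9))
  have h12 : G.sh N (θ / m) p = ch p y := by
    rw [h8, h11, hp, bp, G.sh_nodes_geo N i m true 0 _ h]
    congr 2
    simp only [sg, if_true]
    field_simp
    ring
  have h13 : xM w (G.sh N (θ / m) p) = 0 := by rw [h12, ← xi_co (G.bw_mem i m), hy0, (mem_V0.1 hy).2]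
  have h14 : xM w (G.sh N 0 p) = 0 := by rw [G.sh_zero N (G.bp_mem_Dom i h), G.xM_bp]
  have h15 : |θ / m| ≤ 3 * η / m := by
    rw [abs_div, abs_of_pos hm0]
    exact div_le_div_of_nonneg_right (by linarith) hm0.le
  have h16 : |(0 : ℝ)| ≤ 3 * η / m := by rw [abs_zero]; positivity
  have hpO : p ∈ O := hθ 0 (by simpa using hη.le)
  have h17 : θ / m = 0 := by
    rcases le_total (θ / m) 0 with h18 | h18
    · have := hmono p hpO _ _ h15 h16 h18
      nlinarith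
    · have := hmono p hpO _ _ h16 h15 h18
      nlinarith
  rw [h17, G.sh_zero N (G.bp_mem_Dom i h)] at h12
  rw [← hy0, ← h12, co_self]

theorem exists_SL (i : G.ι) (m N : ℕ) [NeZero N] (hm : 0 < m) (h : m * G.ℓ i < N * G.δ) : ∃ R, G.SL i m N R := by
  obtain ⟨ρ, hρ, h1⟩ := G.isol i m N hm h
  obtain ⟨R, hR⟩ := LR.isolated (G.contDiff_FF (G.bp i m N)) _ hρ h1
  exact ⟨R, by rwa [G.FF_zero i h] at hR⟩

end Setup

end Crest.Agent.R231
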