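import Crest.Agent.R231.GM.Slice
import Crest.Agent.R231.GM.Isol
import Crest.Agent.R231.GM.Ker
import Crest.Agent.R231.GM.Red

/-! R231, block GM: from arcs to circles. -/

set_option autoImplicit false
set_option linter.unusedVariables false
set_option linter.unusedSectionVars false
set_option linter.unusedSimpArgs false
open Set
open scoped Classical ContDiff RealInnerProductSpace

noncomputable section
namespace Crest.Agent.R231

theorem LR.pair {X : Type} [MetricSpace X] {f : X → ℝ} {C : Set X} {x y : X} {a : ℝ} {R : ℕ}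
    (hx : LR f {x} a R) (hy : LR f {y} a R) (h : C ⊆ {x, y}) : LR f C a (2 * R) := by
  have h1 := LR.biUnion (f := f) (a := a) (R := R) (({x, y} : Finset X).filter (· ∈ C)) (D := fun z => {z})
    (fun _ _ => isClosed_singleton) (fun _ _ _ _ h => disjoint_singleton.2 h) fun z hz => by
      rcases Finset.mem_insert.1 (Finset.mem_filter.1 hz).1 with rfl | h2
      · exact hx
      · exact Finset.mem_singleton.1 h2 ▸ hy
  have h2 : ⋃ z ∈ ({x, y} : Finset X).filter (· ∈ C), {z} = C := by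
    ext z
    simp only [Finset.mem_filter, Finset.mem_insert, Finset.mem_singleton, mem_iUnion, mem_singleton_iff]
    exact ⟨fun ⟨w, h3, h4⟩ => h4 ▸ h3.2, fun h3 => ⟨z, ⟨h h3, h3⟩, rfl⟩⟩
  rw [h2] at h1
  exact h1.mono (Nat.mul_le_mul_right _ ((Finset.card_filter_le _ _).trans Finset.card_le_two))

namespace Setup
variable {n : ℕ} (G : Setup n)

theorem uniform_SL (i : G.ι) : ∃ N₀ R : ℕ, G.ℓ i < N₀ * G.δ ∧
    ∀ (m N : ℕ) [NeZero N], N = m * N₀ → G.SL i m N R := by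
  obtain ⟨N₀, h0⟩ := exists_nat_gt (G.ℓ i / G.δ)
  rw [div_lt_iff₀ G.δ_pos] at h0
  obtain ⟨M₀, hM, hk⟩ := G.ker_per i N₀ h0
  have hex : ∀ m₀ : ℕ, ∃ R, ∀ (N : ℕ) [NeZero N], N = m₀ * N₀ → G.SL i m₀ N R := fun m₀ => by
    by_cases h1 : m₀ * N₀ = 0
    · exact ⟨0, fun N _ hN => absurd (hN.trans h1) (NeZero.ne N)⟩
    · have : NeZero (m₀ * N₀) := ⟨h1⟩
      have hm : 0 < m₀ := Nat.pos_of_ne_zero (left_ne_zero_of_mul h1)
      obtain ⟨R, hR⟩ := G.exists_SL i m₀ (m₀ * N₀) hm (by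
        push_cast
        rw [mul_assoc]
        exact mul_lt_mul_of_pos_left h0 (by exact_mod_cast hm))
      exact ⟨R, fun N _ hN => by subst hN; exact hR⟩
  choose r hr using hex
  refine ⟨N₀, ∑ j ∈ Finset.range (M₀ + 1), r j, h0, fun m N _ hN => ?_⟩
  have hN0 : N₀ ≠ 0 := right_ne_zero_of_mul (hN ▸ NeZero.ne N)
  have : NeZero (Nat.gcd m M₀ * N₀) := ⟨mul_ne_zero (Nat.gcd_pos_of_pos_right m hM).ne' hN0⟩
  exact LR.mono (G.red i N₀ (Nat.gcd m M₀) m _ N rfl hN (Nat.gcd_dvd_left _ _) h0 (hk m N hN) (hr _ _ rfl))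
    (Finset.single_le_sum (fun _ _ => Nat.zero_le _)
      (Finset.mem_range.2 (Nat.lt_succ_of_le (Nat.gcd_le_right m hM))))

def orb_sh (s : ℝ) : G.Loop ≃ₜ G.Loop where
  toFun := Loop.shift s
  invFun := Loop.shift (-s)
  left_inv γ := by rw [shift_shift, neg_add_cancel, shift_zero]
  right_inv γ := by rw [shift_shift, add_neg_cancel, shift_zero]
  continuous_toFun := continuous_shift.comp (.prodMk_right s)
  continuous_invFun := continuous_shift.comp (.prodMk_right (-s))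

def orb_tau : G.Loop ≃ₜ G.Loop where
  toFun := Loop.tau
  invFun := Loop.tau
  left_inv := tau_tau
  right_inv := tau_tau
  continuous_toFun := continuous_tau
  continuous_invFun := continuous_tau

/-- arcs `geo '' [j b, (j+1) b]` are shifted copies of `geo '' [0,b]`; `LR.union` by induction on `j`; the intersections
have at most two points -/
theorem orb_of_arc (i : G.ι) {η : ℝ} (hη : 0 < η) (R : ℕ) : ∃ K : ℕ, ∀ m : ℕ, 0 < m →
    (∀ b ∈ Icc (0 : ℝ) η, LR G.T2 (G.geo i m true '' Icc 0 b) ((m * G.ℓ i) ^ 2) R) →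
    ∀ b, LR G.T2 (G.Orb i m b) ((m * G.ℓ i) ^ 2) K := by
  obtain ⟨n₀, hn⟩ := exists_nat_gt (1 / η)
  have hn0 : (0 : ℝ) < n₀ := (one_div_pos.2 hη).trans hn
  have hβ : 0 < 1 / (n₀ : ℝ) := one_div_pos.2 hn0
  have hβη : 1 / (n₀ : ℝ) ≤ η := ((one_div_lt hη hn0).1 hn).le
  refine ⟨R + n₀ * (3 * R), fun m hm h => ?_⟩
  have hm' : (m : ℝ) ≠ 0 := by exact_mod_cast hm.ne'
  have hsh : ∀ s, ∀ b ∈ Icc (0 : ℝ) η, LR G.T2 (G.geo i m true '' Icc s (s + b)) ((m * G.ℓ i) ^ 2) R :=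
    fun s b hb => by
      have h1 := LR.homeo (g := G.T2) (G.orb_sh (s / m)) (fun _ => rfl) (h b hb)
      rw [image_image] at h1
      have h2 : ∀ θ, G.orb_sh (s / m) (G.geo i m true θ) = G.geo i m true (θ + s) := fun θ => by
        refine (geo_shift i m true θ _).trans ?_
        simp [sg, mul_div_cancel₀ _ hm']
      simp only [h2] at h1
      rwa [← image_image (G.geo i m true) (· + s), image_add_const_Icc, zero_add, add_comm b] at h1
  have hpt : ∀ s, LR G.T2 {G.geo i m true s} ((m * G.ℓ i) ^ 2) R := fun s => by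
    simpa using hsh s 0 ⟨le_rfl, hη.le⟩
  have hcl : ∀ s t, IsClosed (G.geo i m true '' Icc s t) := fun s t =>
    (isCompact_Icc.image (continuous_geo i m true)).isClosed
  have hind : ∀ j : ℕ, j ≤ n₀ →
      LR G.T2 (G.geo i m true '' Icc 0 (j * (1 / (n₀ : ℝ)))) ((m * G.ℓ i) ^ 2) (R + j * (3 * R)) := by
    intro j
    induction j with
    | zero => exact fun _ => by simpa using hpt 0
    | succ j ih =>
      intro hj
      have hj0 : 0 ≤ j * (1 / (n₀ : ℝ)) := by positivity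
      have hj1 : j * (1 / (n₀ : ℝ)) + 1 / n₀ ≤ 1 := by
        rw [← add_one_mul, mul_one_div, div_le_one hn0]
        exact_mod_cast hj
      have h1 := fun hh => LR.union (hcl _ _) (hcl _ _) (LR.pair (hpt 0) (hpt (j * (1 / (n₀ : ℝ)))) hh)
        (ih (Nat.le_of_succ_le hj)) (hsh (j * (1 / (n₀ : ℝ))) _ ⟨hβ.le, hβη⟩)
      specialize h1 ?_
      swap
      · rw [← image_union, Icc_union_Icc_eq_Icc hj0 (by linarith)] at h1
        push_cast
        rw [add_one_mul]
        exact h1.mono (le_of_eq (by ring))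
      · rintro _ ⟨⟨s, hs, rfl⟩, s', hs', he⟩
        obtain ⟨k, hk⟩ := geo_inj i hm true he.symm
        have k0 : (0 : ℝ) ≤ k := by linarith [hs.2, hs'.1]
        have k1 : (k : ℝ) ≤ 1 := by linarith [hs.1, hs'.2]
        have k2 : k = 0 ∨ k = 1 := by
          have : (0 : ℤ) ≤ k := by exact_mod_cast k0
          have : k ≤ 1 := by exact_mod_cast k1
          omega
        rcases k2 with rfl | rfl
        · exact Or.inr (congrArg _ (le_antisymm hs.2 (by simpa [hk] using hs'.1)))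
        · push_cast at hk
          exact Or.inl (congrArg _ (le_antisymm (by linarith [hs'.2]) hs.1))
  have ht : LR G.T2 (G.Orb i m true) ((m * G.ℓ i) ^ 2) (R + n₀ * (3 * R)) := by
    have h1 := hind n₀ le_rfl
    rwa [mul_one_div_cancel hn0.ne', ← zero_add (1 : ℝ), (geo_per i m true).image_Icc one_pos] at h1
  intro b
  cases b
  · have h1 := LR.homeo (g := G.T2) G.orb_tau (fun _ => rfl) ht
    rwa [Orb, ← range_comp,
      show G.orb_tau ∘ G.geo i m true = G.geo i m false from funext fun s => geo_tau i m true s] at h1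
  · exact ht

theorem gm_orb (i : G.ι) : ∃ K : ℕ, ∀ m : ℕ, 0 < m → ∀ b, LR G.T2 (G.Orb i m b) ((m * G.ℓ i) ^ 2) K := by
  obtain ⟨N₀, R, h0, h1⟩ := G.uniform_SL i
  obtain ⟨η, hη, h2⟩ := G.arc i
  obtain ⟨K, hK⟩ := G.orb_of_arc i hη R
  refine ⟨K, fun m hm => hK m hm ?_⟩
  have hN : 0 < N₀ := Nat.pos_of_ne_zero fun h => by
    have := G.ℓ_pos i
    simp [h] at h0
    linarith
  have : NeZero (m * N₀) := ⟨(Nat.mul_pos hm hN).ne'⟩
  refine h2 m (m * N₀) hm ?_ R (h1 m _ rfl)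
  push_cast
  rw [mul_assoc]
  exact mul_lt_mul_of_pos_left h0 (by exact_mod_cast hm)

theorem gm_Kr : ∃ K : ℕ, ∀ l, 0 < l → LR G.T2 (G.Kr l true ∪ G.Kr l false) (l ^ 2) K := by
  choose K hK using G.gm_orb
  refine ⟨(Finset.univ : Finset (G.ι × Bool)).card * ∑ i, K i, fun l hl => ?_⟩
  let D : G.ι × Bool → Set G.Loop := fun p => {γ | ∃ m : ℕ, 0 < m ∧ l = m * G.ℓ p.1 ∧ γ ∈ G.Orb p.1 m p.2}
  have hD : ∀ p, D p = ∅ ∨ ∃ m : ℕ, 0 < m ∧ l = m * G.ℓ p.1 ∧ D p = G.Orb p.1 m p.2 := fun p => by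
    rcases (D p).eq_empty_or_nonempty with h | ⟨γ, m, h1, h2, -⟩
    · exact Or.inl h
    · refine Or.inr ⟨m, h1, h2, Subset.antisymm ?_ fun γ h => ⟨m, h1, h2, h⟩⟩
      rintro γ ⟨m', -, h3, h4⟩
      have h5 : m' = m := by exact_mod_cast mul_right_cancel₀ (G.ℓ_pos p.1).ne' (h3.symm.trans h2)
      exact h5 ▸ h4
  have he : G.Kr l true ∪ G.Kr l false = ⋃ p ∈ (Finset.univ : Finset (G.ι × Bool)), D p := by
    ext γ
    simp only [mem_union, Finset.mem_univ, iUnion_true, mem_iUnion, Prod.exists, Bool.exists_bool]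
    constructor
    · rintro (⟨i, h⟩ | ⟨i, h⟩)
      · exact ⟨i, Or.inr h⟩
      · exact ⟨i, Or.inl h⟩
    · rintro ⟨i, h | h⟩
      · exact Or.inr ⟨i, h⟩
      · exact Or.inl ⟨i, h⟩
  rw [he]
  refine LR.biUnion _ (fun p _ => ?_) (fun p _ q _ hpq => ?_) fun p _ => ?_
  · rcases hD p with h | ⟨m, -, -, h⟩
    · exact h ▸ isClosed_empty
    · exact h ▸ (isCompact_Orb _ _ _).isClosed
  · refine disjoint_left.2 ?_
    rintro γ ⟨m, h1, -, h2⟩ ⟨m', h3, -, h4⟩
    exact disjoint_left.1 (disjoint_Orb h1 h3 fun h => hpq (Prod.ext h.1 h.2.2)) h2 h4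
  · rcases hD p with h | ⟨m, h1, h2, h⟩
    · exact h ▸ (LR.empty _ _).mono (Nat.zero_le _)
    · rw [h, h2]
      exact (hK p.1 m h1 p.2).mono (Finset.single_le_sum (fun _ _ => Nat.zero_le _) (Finset.mem_univ _))

end Setup

end Crest.Agent.R231
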