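import Crest.Agent.R231.D.Main
import Crest.Agent.R231.GM.Orb

/-! R231, block GM: uniform bound on the local homology of iterates (Gromoll-Meyer); see notes231/R231.md, section GM. -/

set_option autoImplicit false
set_option linter.unusedVariables false
set_option linter.unusedSectionVars false
open Set
open scoped Classical

noncomputable section
namespace Crest.Agent.R231
namespace Setup
variable {n : ℕ} (G : Setup n)
theorem gm : ∃ K : ℕ, ∀ l, 0 < l → ∃ e₀, 0 < e₀ ∧ ∀ e, 0 < e → e ≤ e₀ →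
    RankLE (G.Lt (l + e)) (G.Lt l) (G.Lt (l + e)) (G.Lt l) K := by
  obtain ⟨K, hK⟩ := G.gm_Kr
  refine ⟨K, fun l hl => ?_⟩
  obtain ⟨O, hO, hC, b₀, hb₀, h⟩ := hK l hl univ isOpen_univ (subset_univ _)
  obtain ⟨r, hr, hrO⟩ := ((G.isCompact_Kr l true).union (G.isCompact_Kr l false)).exists_thickening_subset_open hO hC
  obtain ⟨e₁, he₁, h1⟩ := G.n1 hl hr
  have hS : ∀ x, 0 < x → Sb G.T2 (x ^ 2) = G.Lt x := fun x hx => by
    ext γ
    exact (sq_lt_sq₀ γ.T_nonneg hx.le)
  have hT : ∀ b, G.Tube l b r ⊆ O := fun b => by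
    refine Subset.trans (Metric.thickening_subset_of_subset r ?_) hrO
    cases b
    · exact subset_union_right
    · exact subset_union_left
  have hs : l < √b₀ := Real.lt_sqrt_of_sq_lt hb₀
  refine ⟨min e₁ (√b₀ - l), lt_min he₁ (sub_pos.2 hs), fun e he hee => ?_⟩
  have h2 := h ((l + e) ^ 2) (by nlinarith) (by
    have h3 : l + e ≤ √b₀ := by linarith [hee.trans (min_le_right _ _)]
    exact (Real.le_sqrt (by linarith) (by nlinarith)).1 h3)
  rw [hS l hl, hS (l + e) (by linarith), univ_inter, univ_inter] at h2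
  refine RankLE.of_surj LinearMap.id (fun c hc => ?_) (fun y _ hy => hy) h2
  obtain ⟨c₁, hc₁, c₂, hc₂, d₁, d₂, w, hw, hcw⟩ := h1 e he (hee.trans (min_le_left _ _)) c hc.1 hc.2
  have k₁ : c₁ ∈ sup (O ∩ G.Lt (l + e)) := sup_mono (inter_subset_inter_left _ (hT true)) hc₁
  have k₂ : c₂ ∈ sup (O ∩ G.Lt (l + e)) := sup_mono (inter_subset_inter_left _ (hT false)) hc₂
  refine ⟨c₁ + c₂, ⟨add_mem k₁ k₂, ?_⟩, mem_Bdy.2 ⟨w, hw, ?_⟩⟩
  · refine mem_sup_inter (dd_mem (sup_mono inter_subset_left (add_mem k₁ k₂))) ?_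
    rw [map_add]
    exact add_mem d₁ d₂
  · simpa only [LinearMap.id_apply, add_assoc] using hcw

end Setup
end Crest.Agent.R231
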